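import Vale.Agent.P078.Mss.Stable

/-!
# Boundary form of stability, reality, and monotonicity
-/

namespace Vale.Agent.P078.Mss

open Matrix Finset Filter Topology

variable {V : Type*} [Fintype V] [DecidableEq V] {r : ℕ}
variable {x : Matrix V V ℂ} {p : V → Fin r → ℝ} {z : Fin r → V → ℂ} {B : ℝ}

/-- `D` with `w` adjoined to colour `c`. -/
def adj (D : Fin r → Finset V) (c : Fin r) (w : V) : Fin r → Finset V :=
  Function.update D c (insert w (D c))

/-- `z` with the variable of `w` in colour `c` set to `s`. -/
def setVar (z : Fin r → V → ℂ) (c : Fin r) (w : V) (s : ℂ) : Fin r → V → ℂ :=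
  Function.update z c (Function.update (z c) w s)

/-- The standard upper half-plane. -/
def upper0 (B : ℝ) : HalfPlane B := ⟨1, 0, one_ne_zero, fun t _ => by simp⟩

@[simp] lemma upper0_ht (B : ℝ) (s : ℂ) : (upper0 B).ht s = s.im := by
  simp [upper0, HalfPlane.ht]

lemma continuous_mix (U : Finset V) (D : Fin r → Finset V) :
    Continuous (fun η : ℝ => mix x p (fun c u => z c u + η * Complex.I) U D) := by
  refine continuous_finsetSum _ (fun f _ => continuous_const.mul ?_)
  refine continuous_finsetProd _ (fun c _ => Continuous.matrix_det ?_)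
  refine continuous_matrix (fun i j => ?_)
  simp only [minorMat, Matrix.of_apply]
  split_ifs <;> fun_prop

/-- Stability on the closed upper half-plane. -/
lemma mix_stable_closed (hx : NumBound x B) (hp : ∀ v c, 0 ≤ p v c) (hp1 : ∀ v, ∑ c, p v c = 1)
    (U : Finset V) (D : Fin r → Finset V) (hD : ∀ c, Disjoint U (D c))
    (hz : ∀ c v, 0 ≤ (z c v).im) (c : Fin r) (w : V) (hw : w ∉ U) (hwD : w ∉ D c) :
    (z c w).im * Complex.normSq (mix x p z U D)
      ≤ (mix x p z U (adj D c w) * starRingEnd ℂ (mix x p z U D)).im := by
  set zη : ℝ → Fin r → V → ℂ := fun η d u => z d u + η * Complex.I with hzη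
  have h0 : zη 0 = z := by funext d u; simp [zη]
  have h1 : Continuous (fun η : ℝ => (zη η c w).im * Complex.normSq (mix x p (zη η) U D)) :=
    (Complex.continuous_im.comp (by fun_prop)).mul
      (Complex.continuous_normSq.comp (continuous_mix U D))
  have h2 : Continuous (fun η : ℝ =>
      (mix x p (zη η) U (adj D c w) * starRingEnd ℂ (mix x p (zη η) U D)).im) :=
    Complex.continuous_im.comp ((continuous_mix U _).mul
      (Complex.continuous_conj.comp (continuous_mix U D)))
  have key : ∀ η : ℝ, 0 < η → (zη η c w).im * Complex.normSq (mix x p (zη η) U D)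
      ≤ (mix x p (zη η) U (adj D c w) * starRingEnd ℂ (mix x p (zη η) U D)).im := by
    intro η hη
    obtain ⟨hne, hr⟩ := mix_stable hx (upper0 B) hp hp1 U (zη η) (fun d u => by
      simp only [upper0_ht, zη, Complex.add_im, Complex.mul_im, Complex.ofReal_re,
        Complex.ofReal_im, Complex.I_re, Complex.I_im, mul_one, mul_zero, add_zero, zero_mul]
      linarith [hz d u]) D hD
    have h3 := hr c w hw hwD
    rw [upper0_ht] at h3
    simp only [upper0, one_mul] at h3
    have h4 := mul_le_mul_of_nonneg_right h3 (Complex.normSq_nonneg (mix x p (zη η) U D))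
    refine h4.trans (le_of_eq ?_)
    rw [← Complex.im_mul_ofReal, Complex.normSq_eq_conj_mul_self]
    change (mix x p (zη η) U (adj D c w) / _ * _).im = _
    congr 1
    field_simp
  have := le_of_tendsto_of_tendsto ((h1.tendsto 0).mono_left nhdsWithin_le_nhds)
    ((h2.tendsto 0).mono_left nhdsWithin_le_nhds)
    (show ∀ᶠ η in 𝓝[>] (0 : ℝ), _ from eventually_nhdsWithin_of_forall (fun η hη => key η hη))
  rwa [h0] at this

/-- Adjoining a vertex multiplies the modulus by at least the height of its variable. -/
lemma norm_mix_adj_ge (hx : NumBound x B) (hp : ∀ v c, 0 ≤ p v c) (hp1 : ∀ v, ∑ c, p v c = 1)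
    (U : Finset V) (D : Fin r → Finset V) (hD : ∀ c, Disjoint U (D c))
    (hz : ∀ c v, 0 ≤ (z c v).im) (c : Fin r) (w : V) (hw : w ∉ U) (hwD : w ∉ D c) :
    (z c w).im * ‖mix x p z U D‖ ≤ ‖mix x p z U (adj D c w)‖ := by
  rcases eq_or_ne (mix x p z U D) 0 with h | h
  · rw [h, norm_zero, mul_zero]; positivity
  have h1 := (mix_stable_closed hx hp hp1 U D hD hz c w hw hwD).trans (Complex.im_le_norm _)
  rw [norm_mul, RCLike.norm_conj, Complex.normSq_eq_norm_sq] at h1
  refine le_of_mul_le_mul_right ?_ (norm_pos_iff.2 h)
  calc (z c w).im * ‖mix x p z U D‖ * ‖mix x p z U D‖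
      = (z c w).im * ‖mix x p z U D‖ ^ 2 := by ring
    _ ≤ _ := h1

lemma mix_conj (hx : x.IsHermitian) (U : Finset V) (D : Fin r → Finset V) :
    starRingEnd ℂ (mix x p z U D) = mix x p (fun c u => starRingEnd ℂ (z c u)) U D := by
  simp only [mix, map_sum, map_mul, map_prod, Complex.conj_ofReal]
  refine Finset.sum_congr rfl (fun f _ => congrArg _ (Finset.prod_congr rfl (fun c _ => ?_)))
  rw [← Complex.star_def, ← Matrix.det_conjTranspose]
  congr 1
  refine Matrix.ext (fun i j => ?_)
  simp only [Matrix.conjTranspose_apply, minorMat, Matrix.of_apply, Complex.star_def]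
  have hx' : starRingEnd ℂ (x j i) = x i j := hx.apply i j
  generalize D c ∪ U.filter (fun u => f u = c) = S
  by_cases hi : i ∈ S <;> by_cases hj : j ∈ S <;>
    rcases eq_or_ne i j with rfl | hij <;>
    simp_all [Ne.symm]

/-- Real variables. -/
def realVars (y : Fin r → V → ℝ) : Fin r → V → ℂ := fun c u => (y c u : ℂ)

lemma mix_real (hx : x.IsHermitian) (y : Fin r → V → ℝ) (U : Finset V) (D : Fin r → Finset V) :
    (mix x p (realVars y) U D).im = 0 := by
  refine Complex.conj_eq_iff_im.1 ?_
  rw [mix_conj hx]
  simp only [realVars, Complex.conj_ofReal]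
  rfl

/-- Affine dependence on one variable, in a normal form. -/
lemma mix_affine' (hp1 : ∀ v, ∑ c, p v c = 1) (U : Finset V) (D : Fin r → Finset V) (c : Fin r)
    (w : V) (hU : w ∉ U) (hD : w ∉ D c) (s : ℂ) :
    mix x p (setVar z c w s) U (adj D c w)
      = s * mix x p z U D + mix x p (setVar z c w 0) U (adj D c w) := by
  obtain ⟨k, hk⟩ := mix_affine (x := x) (p := p) (z := z) hp1 U D c w hU hD
  have h0 := hk 0
  rw [zero_mul, zero_add] at h0
  change mix x p (Function.update z c (Function.update (z c) w s)) U
      (Function.update D c (insert w (D c))) = _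
  rw [hk s, ← h0]
  rfl

lemma mix_setVar_of_notMem (U : Finset V) (D : Fin r → Finset V) (c : Fin r) (w : V)
    (hU : w ∉ U) (hD : w ∉ D c) (s : ℂ) :
    mix x p (setVar z c w s) U D = mix x p z U D := by
  simp only [mix]
  refine Finset.sum_congr rfl (fun f _ => congrArg _ (Finset.prod_congr rfl (fun d _ => ?_)))
  congr 1
  refine Matrix.ext (fun i j => ?_)
  simp only [minorMat, Matrix.of_apply]
  split_ifs with h h' <;> try rfl
  by_cases hd : d = c
  · subst hd
    have hi : i ≠ w := by
      rintro rfl
      simp [hU, hD] at h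
    simp [setVar, Function.update_of_ne hi]
  · simp [setVar, Function.update_of_ne hd]

/-- Rayleigh monotonicity: the ratio for `(c, w)` increases in the variable of `(d, u)`. -/
lemma cross_nonneg (hx : NumBound x B) (hp : ∀ v c, 0 ≤ p v c) (hp1 : ∀ v, ∑ c, p v c = 1)
    (U : Finset V) (D : Fin r → Finset V) (y : Fin r → V → ℝ) (hD : ∀ c, Disjoint U (D c))
    {c d : Fin r} {w u : V} (hcw : w ∉ U) (hcwD : w ∉ D c) (hdu : u ∉ U) (hduD : u ∉ D d)
    (hne : ¬(d = c ∧ u = w)) :
    (mix x p (setVar (realVars y) d u 0) U (adj (adj D c w) d u)).re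
        * (mix x p (realVars y) U D).re
      ≤ (mix x p (realVars y) U (adj D c w)).re
        * (mix x p (setVar (realVars y) d u 0) U (adj D d u)).re := by
  set z := setVar (realVars y) d u Complex.I with hz
  have hz0 : ∀ e v, 0 ≤ (z e v).im := by
    intro e v
    by_cases he : e = d
    · subst he
      by_cases hv : v = u
      · subst hv; simp [z, setVar]
      · simp [z, setVar, realVars, Function.update_of_ne hv]
    · simp [z, setVar, realVars, Function.update_of_ne he]
  have hD' : ∀ e, Disjoint U (adj D d u e) := by
    intro e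
    by_cases he : e = d
    · subst he; simp [adj, Finset.disjoint_insert_right, hdu, hD]
    · simp [adj, Function.update_of_ne he, hD]
  have hw' : w ∉ adj D d u c := by
    by_cases he : c = d
    · subst he
      have : w ≠ u := fun h => hne ⟨rfl, h.symm⟩
      simp [adj, hcwD, this]
    · simp [adj, Function.update_of_ne he, hcwD]
  have hcomm : adj (adj D d u) c w = adj (adj D c w) d u := by
    funext e
    by_cases h1 : d = c
    · subst h1
      by_cases he : e = d
      · subst he; simp [adj, Finset.insert_comm]
      · simp [adj, Function.update_of_ne he]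
    · by_cases he : e = d
      · subst he; simp [adj, Function.update_of_ne h1, Function.update_of_ne (Ne.symm h1)]
      · by_cases he' : e = c
        · subst he'; simp [adj, Function.update_of_ne he]
        · simp [adj, Function.update_of_ne he, Function.update_of_ne he']
  have hud : u ∉ adj D c w d := by
    by_cases he : d = c
    · subst he
      have : u ≠ w := fun h => hne ⟨rfl, h⟩
      simp [adj, hduD, this]
    · simp [adj, Function.update_of_ne he, hduD]
  have h := mix_stable_closed hx hp hp1 U (adj D d u) hD' hz0 c w hcw hw'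
  have hzc : (z c w).im = 0 := by
    by_cases he : c = d
    · subst he
      have : w ≠ u := fun h => hne ⟨rfl, h.symm⟩
      simp [z, setVar, realVars, Function.update_of_ne this]
    · simp [z, setVar, realVars, Function.update_of_ne he]
  rw [hzc, zero_mul, hcomm, hz, mix_affine' hp1 U (adj D c w) d u hdu hud,
    mix_affine' hp1 U D d u hdu hduD] at h
  have r1 := mix_real (p := p) hx.1 y U D
  have r2 := mix_real (p := p) hx.1 y U (adj D c w)
  have hreal : setVar (realVars y) d u 0 = realVars (Function.update y d (Function.update (y d) u 0)) := by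
    funext e v
    by_cases he : e = d
    · subst he
      by_cases hv : v = u
      · subst hv; simp [setVar, realVars]
      · simp [setVar, realVars, Function.update_of_ne hv]
    · simp [setVar, realVars, Function.update_of_ne he]
  have r3 := mix_real (p := p) hx.1 (Function.update y d (Function.update (y d) u 0)) U (adj D d u)
  have r4 := mix_real (p := p) hx.1 (Function.update y d (Function.update (y d) u 0)) U
    (adj (adj D c w) d u)
  rw [← hreal] at r3 r4
  simp only [map_add, map_mul, Complex.conj_I, Complex.mul_im, Complex.add_re, Complex.add_im,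
    Complex.mul_re, Complex.I_re, Complex.I_im, Complex.conj_re, Complex.conj_im, Complex.neg_re,
    Complex.neg_im, r1, r2, r3, r4] at h
  linarith

end Vale.Agent.P078.Mss
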