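import Vale.Agent.P078.Mss.Boundary

/-!
# Expansion of mixed determinants in a common variable, and change of the ambient index set
-/

namespace Vale.Agent.P078.Mss

open Finset Matrix

variable {V : Type*} [Fintype V] [DecidableEq V] {r : ℕ}

omit [Fintype V] in
lemma minorMat_empty (x : Matrix V V ℂ) (z : V → ℂ) : minorMat x z ∅ = 1 := by
  refine Matrix.ext (fun i j => ?_)
  simp [minorMat, Matrix.one_apply]

lemma minorMat_det_congr (x : Matrix V V ℂ) {z z' : V → ℂ} {S : Finset V}
    (h : ∀ i ∈ S, z i = z' i) : (minorMat x z S).det = (minorMat x z' S).det := by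
  congr 1
  refine Matrix.ext (fun i j => ?_)
  simp only [minorMat, Matrix.of_apply]
  split_ifs with h1 h2
  · rw [h i h1.1]
  · rfl
  all_goals rfl

/-- Principal minor expansion. -/
lemma minorMat_det_expand (x : Matrix V V ℂ) (z : V → ℂ) (T : Finset V) :
    ∀ S, (minorMat x (fun i => if i ∈ T then z i else 0) S).det
      = ∑ R ∈ (S ∩ T).powerset, (∏ i ∈ R, z i) * (minorMat x 0 (S \ R)).det := by
  induction T using Finset.induction with
  | empty =>
    intro S
    simp only [Finset.notMem_empty, if_false, Finset.inter_empty, Finset.powerset_empty,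
      Finset.sum_singleton, Finset.prod_empty, one_mul, Finset.sdiff_empty]
    rfl
  | insert w T hw ih =>
    intro S
    by_cases hwS : w ∈ S
    swap
    · rw [minorMat_det_congr x (z' := fun i => if i ∈ T then z i else 0) (fun i hi => by
        have : i ≠ w := fun h => hwS (h ▸ hi)
        simp [this]), ih, Finset.inter_insert_of_notMem hwS]
    have hwe : w ∉ S.erase w := Finset.notMem_erase w S
    obtain ⟨k, hk⟩ := minorMat_det_affine x (fun i => if i ∈ T then z i else 0) (S.erase w) w hwe
    rw [Finset.insert_erase hwS] at hk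
    have e : (fun i => if i ∈ insert w T then z i else 0)
        = Function.update (fun i => if i ∈ T then z i else 0) w (z w) := by
      funext i
      by_cases hi : i = w
      · subst hi; simp
      · simp [Function.update_of_ne hi, hi]
    have e0 : Function.update (fun i => if i ∈ T then z i else 0) w 0
        = fun i => if i ∈ T then z i else 0 := by
      funext i
      by_cases hi : i = w
      · subst hi; simp [hw]
      · simp [Function.update_of_ne hi]
    have hk0 := hk 0
    rw [e0, zero_mul, zero_add] at hk0
    rw [e, hk, ← hk0, ih, ih, Finset.inter_insert_of_mem hwS,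
      Finset.sum_powerset_insert (fun h => hw (Finset.mem_inter.1 h).2)]
    have e1 : S.erase w ∩ T = S ∩ T := by
      ext i
      simp only [Finset.mem_inter, Finset.mem_erase]
      exact ⟨fun h => ⟨h.1.2, h.2⟩, fun h => ⟨⟨fun h' => hw (h' ▸ h.2), h.1⟩, h.2⟩⟩
    rw [e1, Finset.mul_sum, add_comm]
    congr 1
    refine Finset.sum_congr rfl (fun R hR => ?_)
    have hwR : w ∉ R := fun h => hw (Finset.mem_inter.1 (Finset.mem_powerset.1 hR h)).2
    rw [Finset.prod_insert hwR, mul_assoc,
      show S \ insert w R = S.erase w \ R by ext i; simp; tauto]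

lemma minorMat_det_expand_const (x : Matrix V V ℂ) (w : ℂ) (S : Finset V) :
    (minorMat x (fun _ => w) S).det
      = ∑ R ∈ S.powerset, w ^ (S.card - R.card) * (minorMat x 0 R).det := by
  rw [minorMat_det_congr x (z' := fun i => if i ∈ S then w else 0) (fun i hi => by simp [hi]),
    minorMat_det_expand x (fun _ => w) S S, Finset.inter_self]
  refine Finset.sum_nbij' (fun R => S \ R) (fun R => S \ R) ?_ ?_ ?_ ?_ ?_
  all_goals intro R hR
  all_goals simp only [Finset.mem_coe, Finset.mem_powerset] at hR ⊢
  · exact Finset.sdiff_subset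
  · exact Finset.sdiff_subset
  · exact Finset.sdiff_sdiff_eq_self hR
  · exact Finset.sdiff_sdiff_eq_self hR
  · rw [Finset.prod_const, Finset.card_sdiff_of_subset hR]
    congr 2
    have := Finset.card_le_card hR
    omega

/-- The matrix with the entries between different colours erased. -/
def pinched (x : Matrix V V ℂ) (f : V → Fin r) : Matrix V V ℂ :=
  Matrix.of fun i j => if f i = f j then x i j else 0

lemma prod_minor_eq (x : Matrix V V ℂ) (z : V → ℂ) (f : V → Fin r) (S : Finset V) :
    ∏ c, (minorMat x z (S.filter (fun u => f u = c))).det = (minorMat (pinched x f) z S).det := by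
  suffices ∀ C : Finset (Fin r), ∏ c ∈ C, (minorMat x z (S.filter (fun u => f u = c))).det
      = (minorMat (pinched x f) z (S.filter (fun u => f u ∈ C))).det by
    simpa using this Finset.univ
  intro C
  induction C using Finset.induction with
  | empty => simp [minorMat_empty]
  | insert c C hc ih =>
    rw [Finset.prod_insert hc, ih, ← Matrix.det_mul]
    congr 1
    refine Matrix.ext (fun i j => ?_)
    simp only [Matrix.mul_apply]
    by_cases hi : i ∈ S ∧ f i = c
    · rw [Finset.sum_eq_single j]
      · have : ¬ (i ∈ S ∧ f i ∈ C) := fun h => hc (hi.2 ▸ h.2)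
        by_cases hjS : j ∈ S <;> by_cases hjc : f j = c <;> by_cases hjC : f j ∈ C <;>
          by_cases hij : i = j <;> simp_all [minorMat, pinched] <;> intro h <;> simp_all
      · intro k _ hkj
        by_cases hk : k ∈ S ∧ f k = c
        · have : f k ∉ C := hk.2.symm ▸ hc
          simp [minorMat, hk.1, this, Ne.symm hkj, hkj]
        · have : i ≠ k := fun h => hk (h ▸ hi)
          simp [minorMat, hi.1, hi.2, this, hk]
      · simp
    · rw [Finset.sum_eq_single i]
      · by_cases hiS : i ∈ S <;> by_cases hjS : j ∈ S <;> by_cases hjc : f j = c <;>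
          by_cases hjC : f j ∈ C <;> by_cases hij : i = j <;> by_cases hiC : f i ∈ C <;>
            simp_all [minorMat, pinched]
      · intro k _ hki
        simp [minorMat, Finset.mem_filter, hi, Ne.symm hki]
      · simp

lemma mix_eq_pinched (x : Matrix V V ℂ) (p : V → Fin r → ℝ) (z : V → ℂ) (U : Finset V) :
    mix x p (fun _ => z) U (fun _ => ∅)
      = ∑ f : V → Fin r, (∏ v, (p v (f v) : ℂ)) * (minorMat (pinched x f) z U).det := by
  simp only [mix, Finset.empty_union]
  exact Finset.sum_congr rfl (fun f _ => by rw [prod_minor_eq])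

/-- Expansion of the fully mixed determinant in a common variable. -/
lemma mix_expand (x : Matrix V V ℂ) (p : V → Fin r → ℝ) (w : ℂ) :
    mix x p (fun _ _ => w) Finset.univ (fun _ => ∅)
      = ∑ R : Finset V, w ^ (Fintype.card V - R.card) * mix x p 0 R (fun _ => ∅) := by
  rw [show (0 : Fin r → V → ℂ) = fun _ => (0 : V → ℂ) from rfl]
  simp only [mix_eq_pinched, minorMat_det_expand_const, Finset.powerset_univ, Finset.card_univ,
    Finset.mul_sum]
  rw [Finset.sum_comm]
  exact Finset.sum_congr rfl (fun R _ => Finset.sum_congr rfl (fun f _ => by ring))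

lemma mix_p_congr {x : Matrix V V ℂ} {p q : V → Fin r → ℝ} {z : Fin r → V → ℂ}
    (hp : ∀ v, ∑ c, p v c = 1) (hq : ∀ v, ∑ c, q v c = 1) {U : Finset V}
    (h : ∀ v ∈ U, p v = q v) (D : Fin r → Finset V) : mix x p z U D = mix x q z U D := by
  induction U using Finset.induction generalizing D with
  | empty => rw [mix_empty hp, mix_empty hq]
  | insert v U hv ih =>
    rw [mix_insert hp hv, mix_insert hq hv, h v (Finset.mem_insert_self v U)]
    exact Finset.sum_congr rfl (fun c _ => by
      rw [ih (fun u hu => h u (Finset.mem_insert_of_mem hu))])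

variable {W : Type*} [Fintype W] [DecidableEq W]

lemma minorMat_det_embed (ι : W ↪ V) (x : Matrix V V ℂ) (z : V → ℂ) (S : Finset W) :
    (minorMat x z (S.map ι)).det
      = (minorMat (x.submatrix ι ι) (fun i => z (ι i)) S).det := by
  classical
  let q : V → Prop := fun v => v ∈ Set.range ι
  let e := Equiv.sumCompl q
  have he : (minorMat x z (S.map ι)).submatrix e e
      = Matrix.fromBlocks ((minorMat x z (S.map ι)).submatrix Subtype.val Subtype.val) 0 0 1 := by
    refine Matrix.ext (fun i j => ?_)
    have out : ∀ v : {v // ¬ q v}, v.1 ∉ S.map ι := fun v h => v.2 (by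
      obtain ⟨w, -, hw⟩ := Finset.mem_map.1 h
      exact ⟨w, hw⟩)
    rcases i with i | i <;> rcases j with j | j
    · rfl
    · have : i.1 ≠ j.1 := fun h => j.2 (h ▸ i.2)
      simp [e, minorMat, out j, this, -Finset.mem_map]
    · have : i.1 ≠ j.1 := fun h => i.2 (h ▸ j.2)
      simp [e, minorMat, out i, this, -Finset.mem_map]
    · simp [e, minorMat, out i, Matrix.one_apply, Subtype.ext_iff, -Finset.mem_map]
  rw [← Matrix.det_submatrix_equiv_self e, he, Matrix.det_fromBlocks_zero₂₁, Matrix.det_one,
    mul_one, ← Matrix.det_submatrix_equiv_self (Equiv.ofInjective ι ι.injective)]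
  congr 1
  refine Matrix.ext (fun i j => ?_)
  simp [minorMat, Equiv.ofInjective, Matrix.submatrix_apply]

lemma mix_embed (ι : W ↪ V) (x : Matrix V V ℂ) {p : V → Fin r → ℝ} (hp : ∀ v, ∑ c, p v c = 1)
    (z : Fin r → V → ℂ) (U : Finset W) :
    ∀ D : Fin r → Finset W, mix x p z (U.map ι) (fun c => (D c).map ι)
      = mix (x.submatrix ι ι) (fun i => p (ι i)) (fun c i => z c (ι i)) U D := by
  induction U using Finset.induction with
  | empty =>
    intro D
    rw [Finset.map_empty, mix_empty hp, mix_empty (fun i => hp (ι i))]
    exact Finset.prod_congr rfl (fun c _ => minorMat_det_embed ι x (z c) (D c))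
  | insert v U hv ih =>
    intro D
    rw [Finset.map_insert, mix_insert hp (by simpa using hv), mix_insert (fun i => hp (ι i)) hv]
    refine Finset.sum_congr rfl (fun c _ => ?_)
    rw [← ih]
    congr 2
    funext d
    by_cases hd : d = c
    · subst hd; simp
    · simp [Function.update_of_ne hd]

end Vale.Agent.P078.Mss
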