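import Mathlib

/-!
# Smoothed root counts of real rooted polynomials
-/

namespace Vale.Agent.P078.Mss

open Filter Topology Set

variable {n : ℕ}

/-- Sum of the arguments of `w - ρ i`. -/
noncomputable def argSum (ρ : Fin n → ℝ) (w : ℂ) : ℝ := ∑ i, Complex.arg (w - ρ i)

/-- Number of roots above `s`. -/
noncomputable def above (ρ : Fin n → ℝ) (s : ℝ) : ℕ :=
  (Finset.univ.filter (fun i => s < ρ i)).card

/-- The value of the monic polynomial with roots `ρ`. -/
noncomputable def rootProd (ρ : Fin n → ℝ) (w : ℂ) : ℂ := ∏ i, (w - ρ i)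

lemma rootProd_ne_zero (ρ : Fin n → ℝ) {w : ℂ} (hw : w.im ≠ 0) : rootProd ρ w ≠ 0 :=
  Finset.prod_ne_zero_iff.2 (fun i _ h => hw (by simpa using congrArg Complex.im h))

lemma exp_argSum (ρ : Fin n → ℝ) {w : ℂ} (hw : w.im ≠ 0) :
    Complex.exp ((argSum ρ w : ℂ) * Complex.I) = rootProd ρ w / (‖rootProd ρ w‖ : ℂ) := by
  rw [rootProd, norm_prod, Complex.ofReal_prod, ← Finset.prod_div_distrib, argSum,
    Complex.ofReal_sum, Finset.sum_mul, Complex.exp_sum]
  refine Finset.prod_congr rfl (fun i _ => ?_)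
  have h : (w - ρ i) ≠ 0 := fun h => hw (by simpa using congrArg Complex.im h)
  rw [eq_div_iff (by simpa using h), mul_comm]
  exact Complex.norm_mul_exp_arg_mul_I _

/-- Continuity of the argument sum along a vertical line. -/
lemma continuousOn_argSum (ρ : Fin n → ℝ) (x : ℝ) :
    ContinuousOn (fun t : ℝ => argSum ρ ((x : ℂ) + t * Complex.I)) (Ioi 0) := by
  refine continuousOn_finsetSum _ (fun i _ => ?_)
  refine ContinuousOn.comp (g := Complex.arg) (t := Complex.slitPlane)
    (fun z hz => (Complex.continuousAt_arg hz).continuousWithinAt) (by fun_prop) ?_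
  intro t ht
  exact Complex.mem_slitPlane_iff.2 (Or.inr (by simpa using ne_of_gt ht))

lemma tendsto_arg_vertical (a : ℝ) :
    Tendsto (fun t : ℝ => Complex.arg ((a : ℂ) + t * Complex.I)) atTop (𝓝 (Real.pi / 2)) := by
  have h1 : Tendsto (fun t : ℝ => ((a / t : ℝ) : ℂ) + Complex.I) atTop
      (𝓝 (((0 : ℝ) : ℂ) + Complex.I)) :=
    ((Complex.continuous_ofReal.tendsto _).comp
      (tendsto_const_nhds.div_atTop tendsto_id)).add tendsto_const_nhds
  have h2 : ContinuousAt Complex.arg (((0 : ℝ) : ℂ) + Complex.I) :=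
    Complex.continuousAt_arg (Complex.mem_slitPlane_iff.2 (Or.inr (by simp)))
  have h3 := h2.tendsto.comp h1
  rw [Complex.ofReal_zero, zero_add, Complex.arg_I] at h3
  refine h3.congr' ?_
  filter_upwards [eventually_gt_atTop 0] with t ht
  simp only [Function.comp_apply]
  have : (a : ℂ) + t * Complex.I = (t : ℂ) * (((a / t : ℝ) : ℂ) + Complex.I) := by
    have ht' : (t : ℂ) ≠ 0 := by exact_mod_cast ht.ne'
    push_cast
    field_simp
  rw [this, Complex.arg_real_mul _ ht]

lemma tendsto_argSum_atTop (ρ : Fin n → ℝ) (x : ℝ) :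
    Tendsto (fun t : ℝ => argSum ρ ((x : ℂ) + t * Complex.I)) atTop
      (𝓝 (n * (Real.pi / 2))) := by
  have h : Tendsto (fun t : ℝ => argSum ρ ((x : ℂ) + t * Complex.I)) atTop
      (𝓝 (∑ _i : Fin n, Real.pi / 2)) := tendsto_finsetSum _ (fun i _ =>
    (tendsto_arg_vertical (x - ρ i)).congr (fun t => by
      congr 1; push_cast; ring))
  simpa using h

lemma rootProd_vertical_ratio (ρ σ : Fin n → ℝ) (x : ℝ) :
    Tendsto (fun t : ℝ => rootProd σ ((x : ℂ) + t * Complex.I)
      / rootProd ρ ((x : ℂ) + t * Complex.I)) atTop (𝓝 1) := by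
  simp only [rootProd, ← Finset.prod_div_distrib]
  have h : ∀ i, Tendsto (fun t : ℝ => ((x : ℂ) + t * Complex.I - σ i)
      / ((x : ℂ) + t * Complex.I - ρ i)) atTop (𝓝 1) := by
    intro i
    have h1 : ∀ c : ℝ, Tendsto (fun t : ℝ => ((c / t : ℝ) : ℂ) + Complex.I) atTop (𝓝 Complex.I) :=
      fun c => by
        simpa using ((Complex.continuous_ofReal.tendsto _).comp
          (tendsto_const_nhds (x := c) |>.div_atTop tendsto_id)).add
            (tendsto_const_nhds (x := Complex.I))
    have h2 := (h1 (x - σ i)).div (h1 (x - ρ i)) Complex.I_ne_zero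
    rw [div_self Complex.I_ne_zero] at h2
    refine h2.congr' ?_
    filter_upwards [eventually_gt_atTop 0] with t ht
    have e : ∀ c : ℝ, ((c / t : ℝ) : ℂ) + Complex.I = ((c : ℂ) + t * Complex.I) / (t : ℂ) :=
      fun c => by
        have ht' : (t : ℂ) ≠ 0 := by exact_mod_cast ht.ne'
        push_cast
        field_simp
    have ht' : (t : ℂ) ≠ 0 := by exact_mod_cast ht.ne'
    rw [Pi.div_apply, e, e, div_div_div_cancel_right₀ ht']
    push_cast
    ring
  simpa using tendsto_finsetProd Finset.univ (fun i _ => h i)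

/-- If the ratio of two real rooted polynomials avoids the negative axis in the upper half-plane,
then its argument is the difference of the argument sums. -/
theorem argSum_sub_eq {c : ℝ} (hc : 0 < c) {ρ σ : Fin n → ℝ}
    (hR : ∀ w : ℂ, 0 < w.im → (c : ℂ) * (rootProd σ w / rootProd ρ w) ∈ Complex.slitPlane)
    {w : ℂ} (hw : 0 < w.im) :
    argSum σ w - argSum ρ w = Complex.arg (rootProd σ w / rootProd ρ w) := by
  have hR' : ∀ w : ℂ, 0 < w.im → rootProd σ w / rootProd ρ w ∈ Complex.slitPlane := fun w hw => by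
    have := hR w hw
    rw [Complex.mem_slitPlane_iff, Complex.re_ofReal_mul, Complex.im_ofReal_mul] at this
    rw [Complex.mem_slitPlane_iff]
    rcases this with h | h
    · exact Or.inl (pos_of_mul_pos_right h hc.le)
    · exact Or.inr (fun h0 => h (by rw [h0, mul_zero]))
  set z : ℝ → ℂ := fun t => (w.re : ℂ) + t * Complex.I with hz
  have hzim : ∀ t, (z t).im = t := fun t => by simp [z]
  set d : ℝ → ℝ := fun t =>
    (argSum σ (z t) - argSum ρ (z t) - Complex.arg (rootProd σ (z t) / rootProd ρ (z t)))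
      / (2 * Real.pi) with hd
  have hint : ∀ t ∈ Ioi (0 : ℝ), ∃ k : ℤ, d t = k := by
    intro t ht
    have him : (z t).im ≠ 0 := by rw [hzim]; exact ne_of_gt ht
    have h1 := exp_argSum σ him
    have h2 := exp_argSum ρ him
    set a := rootProd σ (z t)
    set b := rootProd ρ (z t)
    have ha : a ≠ 0 := rootProd_ne_zero _ him
    have hb : b ≠ 0 := rootProd_ne_zero _ him
    have h3 : Complex.exp ((Complex.arg (a / b) : ℂ) * Complex.I)
        = (a / b) / ((‖a / b‖ : ℝ) : ℂ) := by
      rw [eq_div_iff (by simpa using div_ne_zero ha hb), mul_comm]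
      exact Complex.norm_mul_exp_arg_mul_I _
    have h4 : Complex.exp (((argSum σ (z t) - argSum ρ (z t) - Complex.arg (a / b) : ℝ) : ℂ)
        * Complex.I) = 1 := by
      push_cast
      rw [sub_mul, sub_mul, Complex.exp_sub, Complex.exp_sub, h1, h2, h3, norm_div]
      have na : ((‖a‖ : ℝ) : ℂ) ≠ 0 := by simpa using ha
      have nb : ((‖b‖ : ℝ) : ℂ) ≠ 0 := by simpa using hb
      push_cast
      field_simp
    obtain ⟨k, hk⟩ := Complex.exp_eq_one_iff.1 h4
    refine ⟨k, ?_⟩
    have h5 := congrArg Complex.im hk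
    simp only [Complex.mul_im, Complex.ofReal_re, Complex.ofReal_im, Complex.I_re, Complex.I_im,
      mul_zero, mul_one, add_zero, Complex.intCast_re, Complex.intCast_im, zero_mul, Complex.mul_re,
      Complex.re_ofNat, Complex.im_ofNat, sub_zero, zero_add] at h5
    rw [hd]
    simp only
    rw [h5, div_eq_iff (by positivity)]
  have hcont : ContinuousOn d (Ioi 0) := by
    refine (((continuousOn_argSum σ w.re).sub (continuousOn_argSum ρ w.re)).sub ?_).div_const _
    refine ContinuousOn.comp (g := Complex.arg) (t := Complex.slitPlane)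
      (fun u hu => (Complex.continuousAt_arg hu).continuousWithinAt) ?_ ?_
    · refine ContinuousOn.div ?_ ?_ (fun t ht => rootProd_ne_zero _ (by
        rw [hzim]; exact ne_of_gt ht)) <;>
      · unfold rootProd; fun_prop
    · exact fun t ht => hR' _ (by rw [hzim]; exact ht)
  have hlim : Tendsto d atTop (𝓝 0) := by
    have h1 : Tendsto (fun t => Complex.arg (rootProd σ (z t) / rootProd ρ (z t))) atTop (𝓝 0) := by
      have := (Complex.continuousAt_arg (show (1 : ℂ) ∈ Complex.slitPlane by simp)).tendsto.comp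
        (rootProd_vertical_ratio ρ σ w.re)
      simpa [z, Function.comp_def] using this
    have := (((tendsto_argSum_atTop σ w.re).sub (tendsto_argSum_atTop ρ w.re)).sub h1).div_const
      (2 * Real.pi)
    simpa [d, z] using this
  have hwz : z w.im = w := Complex.re_add_im w
  have hkey : d w.im = 0 := by
    by_contra hne
    obtain ⟨k, hk⟩ := hint w.im hw
    have hk1 : (1 : ℝ) ≤ |d w.im| := by
      rw [hk, ← Int.cast_abs]
      exact_mod_cast Int.one_le_abs (fun h => hne (by rw [hk, h, Int.cast_zero]))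
    obtain ⟨T, hT, hTw⟩ := ((hlim.abs.eventually (eventually_lt_nhds
      (show |(0 : ℝ)| < 1 / 2 by norm_num))).and (eventually_gt_atTop w.im)).exists
    have hmem : (1 / 2 : ℝ) ∈ Icc (|d T|) (|d w.im|) := ⟨hT.le, by linarith⟩
    obtain ⟨t, ht, htd⟩ := intermediate_value_Icc' hTw.le
      ((hcont.mono (fun t ht => lt_of_lt_of_le hw ht.1)).abs) hmem
    obtain ⟨j, hj⟩ := hint t (lt_of_lt_of_le hw ht.1)
    simp only at htd
    rw [hj, ← Int.cast_abs] at htd
    have h2 : ((2 * |j| : ℤ) : ℝ) = ((1 : ℤ) : ℝ) := by push_cast at htd ⊢; linarith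
    have h3 : 2 * |j| = 1 := by exact_mod_cast h2
    omega
  rw [hd] at hkey
  simp only [hwz] at hkey
  have := (div_eq_zero_iff.1 hkey).resolve_right (by positivity)
  linarith

lemma tendsto_argSum_zero (ρ : Fin n → ℝ) {s : ℝ} (hs : ∀ i, ρ i ≠ s) :
    Tendsto (fun t : ℝ => argSum ρ ((s : ℂ) + t * Complex.I)) (𝓝[>] 0)
      (𝓝 (Real.pi * above ρ s)) := by
  have h : ∀ i, Tendsto (fun t : ℝ => Complex.arg ((s : ℂ) + t * Complex.I - ρ i)) (𝓝[>] 0)
      (𝓝 (if s < ρ i then Real.pi else 0)) := by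
    intro i
    have hpath : Tendsto (fun t : ℝ => (s : ℂ) + t * Complex.I - ρ i) (𝓝[>] 0)
        (𝓝 ((s - ρ i : ℝ) : ℂ)) := by
      have : Continuous (fun t : ℝ => (s : ℂ) + t * Complex.I - ρ i) := by fun_prop
      simpa using (this.tendsto 0).mono_left nhdsWithin_le_nhds
    split_ifs with hi
    · refine (Complex.tendsto_arg_nhdsWithin_im_nonneg_of_re_neg_of_im_zero
        (z := ((s - ρ i : ℝ) : ℂ)) (by simpa using hi) (by simp)).comp
          (tendsto_nhdsWithin_iff.2 ⟨hpath, ?_⟩)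
      filter_upwards [self_mem_nhdsWithin] with t ht
      simpa using le_of_lt (Set.mem_Ioi.1 ht)
    · have hlt : 0 < s - ρ i := sub_pos.2 (lt_of_le_of_ne (not_lt.1 hi) (hs i))
      have := (Complex.continuousAt_arg (show ((s - ρ i : ℝ) : ℂ) ∈ Complex.slitPlane from
        Complex.ofReal_mem_slitPlane.2 hlt)).tendsto.comp hpath
      rwa [Complex.arg_ofReal_of_nonneg hlt.le] at this
  have := tendsto_finsetSum Finset.univ (fun i _ => h i)
  rw [Finset.sum_ite, Finset.sum_const, Finset.sum_const_zero, add_zero, nsmul_eq_mul,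
    mul_comm] at this
  exact this

lemma above_diff_le {c : ℝ} (hc : 0 < c) {ρ σ : Fin n → ℝ}
    (hR : ∀ w : ℂ, 0 < w.im → (c : ℂ) * (rootProd σ w / rootProd ρ w) ∈ Complex.slitPlane)
    {s : ℝ} (hρ : ∀ i, ρ i ≠ s) (hσ : ∀ i, σ i ≠ s) :
    |(above σ s : ℝ) - above ρ s| ≤ 1 := by
  have h := ((tendsto_argSum_zero σ hσ).sub (tendsto_argSum_zero ρ hρ)).abs
  have hb : |Real.pi * above σ s - Real.pi * above ρ s| ≤ Real.pi := by
    refine le_of_tendsto h ?_
    filter_upwards [self_mem_nhdsWithin] with t ht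
    rw [argSum_sub_eq hc hR (by simpa using Set.mem_Ioi.1 ht)]
    exact Complex.abs_arg_le_pi _
  rw [← mul_sub, abs_mul, abs_of_pos Real.pi_pos] at hb
  exact le_of_mul_le_mul_left (by linarith) Real.pi_pos

lemma above_mono {c : ℝ} (hc : 0 < c) {ρ σ : Fin n → ℝ}
    (hR : ∀ w : ℂ, 0 < w.im → (c : ℂ) * (rootProd σ w / rootProd ρ w) ∈ Complex.slitPlane)
    (hI : ∀ w : ℂ, 0 < w.im → (rootProd σ w / rootProd ρ w).im ≤ 0)
    {s : ℝ} (hρ : ∀ i, ρ i ≠ s) (hσ : ∀ i, σ i ≠ s) :
    above σ s ≤ above ρ s := by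
  have h := (tendsto_argSum_zero σ hσ).sub (tendsto_argSum_zero ρ hρ)
  have hb : Real.pi * above σ s - Real.pi * above ρ s ≤ 0 := by
    refine le_of_tendsto h ?_
    filter_upwards [self_mem_nhdsWithin] with t ht
    have hw : 0 < ((s : ℂ) + t * Complex.I).im := by simpa using Set.mem_Ioi.1 ht
    rw [argSum_sub_eq hc hR hw]
    rcases (hI _ hw).lt_or_eq with h | h
    · exact (Complex.arg_neg_iff.2 h).le
    · have h2 := hR _ hw
      rw [Complex.mem_slitPlane_iff, Complex.re_ofReal_mul, Complex.im_ofReal_mul] at h2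
      rcases h2 with h2 | h2
      · rw [Complex.arg_eq_zero_iff.2 ⟨(pos_of_mul_pos_right h2 hc.le).le, h⟩]
      · exact absurd (by rw [h, mul_zero]) h2
  exact_mod_cast le_of_mul_le_mul_left (show Real.pi * (above σ s : ℝ) ≤ Real.pi * above ρ s by
    linarith) Real.pi_pos

/-- Monotone root lists with ordered counting functions are ordered. -/
lemma le_of_above_le {ρ σ : Fin n → ℝ} (hρm : Monotone ρ) (hσm : Monotone σ)
    (h : ∀ s, (∀ i, ρ i ≠ s) → (∀ i, σ i ≠ s) → above σ s ≤ above ρ s) (i : Fin n) :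
    σ i ≤ ρ i := by
  by_contra hlt
  push Not at hlt
  obtain ⟨s, ⟨hs1, hs2⟩, hs⟩ := ((Set.Ioo_infinite hlt).sdiff
    ((Set.finite_range ρ).union (Set.finite_range σ))).nonempty
  have hρs : ∀ j, ρ j ≠ s := fun j hj => hs (Or.inl ⟨j, hj⟩)
  have hσs : ∀ j, σ j ≠ s := fun j hj => hs (Or.inr ⟨j, hj⟩)
  have h1 : Finset.Ici i ⊆ Finset.univ.filter (fun j => s < σ j) := fun j hj => by
    simp only [Finset.mem_filter, Finset.mem_univ, true_and]
    exact hs2.trans_le (hσm (Finset.mem_Ici.1 hj))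
  have h2 : Finset.univ.filter (fun j => s < ρ j) ⊆ Finset.Ioi i := fun j hj => by
    simp only [Finset.mem_filter, Finset.mem_univ, true_and] at hj
    refine Finset.mem_Ioi.2 (lt_of_not_ge (fun hji => ?_))
    exact lt_irrefl _ ((hj.trans_le (hρm hji)).trans hs1)
  have h3 := (Finset.card_le_card h1).trans ((h s hρs hσs).trans (Finset.card_le_card h2))
  rw [Fin.card_Ici, Fin.card_Ioi] at h3
  have := i.isLt
  omega

end Vale.Agent.P078.Mss
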