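import Mathlib

/-!
# Stability of expected pinched determinants
-/

namespace Vale.Agent.P078.Mss

open Matrix Finset
open scoped BigOperators

variable {V : Type*} [Fintype V] [DecidableEq V] {r : ℕ}

/-- The matrix `diag z - x` on `S`, extended by the identity off `S`. -/
def minorMat (x : Matrix V V ℂ) (z : V → ℂ) (S : Finset V) : Matrix V V ℂ :=
  Matrix.of fun i j => if i ∈ S ∧ j ∈ S then (if i = j then z i else 0) - x i j
    else if i = j then 1 else 0

/-- An open half-plane missing the segment `[-B, B]`. -/
structure HalfPlane (B : ℝ) where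
  a : ℂ
  b : ℝ
  a_ne : a ≠ 0
  disj : ∀ t : ℝ, |t| ≤ B → (a * (t : ℂ)).im ≤ b

/-- Height above the boundary. -/
def HalfPlane.ht {B : ℝ} (P : HalfPlane B) (z : ℂ) : ℝ := (P.a * z).im - P.b

/-- The numerical range of the Hermitian matrix `x` lies in `[-B, B]`. -/
def NumBound (x : Matrix V V ℂ) (B : ℝ) : Prop :=
  x.IsHermitian ∧ ∀ v : V → ℂ, |(star v ⬝ᵥ x *ᵥ v).re| ≤ B * ∑ i, Complex.normSq (v i)

lemma minorMat_det_ne_zero {x : Matrix V V ℂ} {B : ℝ} (hx : NumBound x B) (P : HalfPlane B)
    {z : V → ℂ} {S : Finset V} (hz : ∀ i ∈ S, 0 < P.ht (z i)) : (minorMat x z S).det ≠ 0 := by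
  intro h
  obtain ⟨v, hv, hMv⟩ := Matrix.exists_mulVec_eq_zero_iff.2 h
  have hout : ∀ i ∉ S, v i = 0 := by
    intro i hi
    have := congrFun hMv i
    simpa [minorMat, mulVec, dotProduct, hi] using this
  have hin : ∀ i ∈ S, z i * v i = (x *ᵥ v) i := by
    intro i hi
    have h1 := congrFun hMv i
    have h2 : ∀ j, minorMat x z S i j * v j = ((if i = j then z i else 0) - x i j) * v j := by
      intro j
      by_cases hj : j ∈ S
      · simp [minorMat, hi, hj]
      · simp [hout j hj]
    simp only [mulVec, dotProduct, Pi.zero_apply, h2, sub_mul, ite_mul, zero_mul,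
      Finset.sum_sub_distrib, Finset.sum_ite_eq, Finset.mem_univ, if_true, sub_eq_zero] at h1
    exact h1
  set n : ℝ := ∑ i, Complex.normSq (v i) with hn
  have hn0 : 0 < n := by
    obtain ⟨i, hi⟩ := Function.ne_iff.1 hv
    exact Finset.sum_pos' (fun _ _ => Complex.normSq_nonneg _)
      ⟨i, Finset.mem_univ _, Complex.normSq_pos.2 hi⟩
  set t := star v ⬝ᵥ x *ᵥ v with ht
  have him : t.im = 0 := by
    exact hx.1.im_star_dotProduct_mulVec_self v
  have heq : t = ∑ i, z i * (Complex.normSq (v i) : ℂ) := by
    rw [ht]
    refine Finset.sum_congr rfl (fun i _ => ?_)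
    by_cases hi : i ∈ S
    · rw [← hin i hi, Pi.star_apply, Complex.normSq_eq_conj_mul_self, Complex.star_def]
      ring
    · simp [hout i hi]
  have hlt : P.b * n < (P.a * t).im := by
    rw [heq, hn]
    simp only [Finset.mul_sum, Complex.im_sum]
    refine Finset.sum_lt_sum (fun i _ => ?_) ?_
    · rw [← mul_assoc, Complex.im_mul_ofReal]
      by_cases hi : i ∈ S
      · refine mul_le_mul_of_nonneg_right ?_ (Complex.normSq_nonneg _)
        have := hz i hi
        rw [HalfPlane.ht] at this
        linarith
      · simp [hout i hi]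
    · obtain ⟨i, hi⟩ := Function.ne_iff.1 hv
      have hiS : i ∈ S := by
        by_contra h'
        exact hi (hout i h')
      refine ⟨i, Finset.mem_univ _, ?_⟩
      rw [← mul_assoc, Complex.im_mul_ofReal]
      refine mul_lt_mul_of_pos_right ?_ (Complex.normSq_pos.2 hi)
      have := hz i hiS
      rw [HalfPlane.ht] at this
      linarith
  have hb : |t.re / n| ≤ B := by
    rw [abs_div, abs_of_pos hn0, div_le_iff₀ hn0]
    exact hx.2 v
  have h3 := mul_le_mul_of_nonneg_right (P.disj _ hb) hn0.le
  rw [← Complex.im_mul_ofReal, mul_assoc, ← Complex.ofReal_mul, div_mul_cancel₀ _ hn0.ne'] at h3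
  have h4 : (t.re : ℂ) = t := Complex.ext (by simp) (by simp [him])
  rw [h4] at h3
  linarith

lemma det_eq_of_agree {M N : Matrix V V ℂ} {w : V} (hM : ∀ j, j ≠ w → M w j = 0)
    (hN : ∀ j, j ≠ w → N w j = 0) (hw : M w w = N w w)
    (hagree : ∀ i j, i ≠ w → j ≠ w → M i j = N i j) : M.det = N.det := by
  rw [Matrix.det_apply, Matrix.det_apply]
  refine Finset.sum_congr rfl (fun σ _ => ?_)
  congr 1
  by_cases hs : σ w = w
  · refine Finset.prod_congr rfl (fun i _ => ?_)
    by_cases hi : i = w
    · subst hi; rw [hs]; exact hw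
    · exact hagree _ _ (fun h => hi (σ.injective (h.trans hs.symm))) hi
  · obtain ⟨i, hi⟩ := σ.surjective w
    have hiw : i ≠ w := fun h => hs (h ▸ hi)
    rw [Finset.prod_eq_zero (Finset.mem_univ i) (by rw [hi]; exact hM i hiw),
      Finset.prod_eq_zero (Finset.mem_univ i) (by rw [hi]; exact hN i hiw)]

lemma minorMat_det_affine (x : Matrix V V ℂ) (z : V → ℂ) (S : Finset V) (w : V) (hw : w ∉ S) :
    ∃ c : ℂ, ∀ s : ℂ, (minorMat x (Function.update z w s) (insert w S)).det
      = s * (minorMat x z S).det + c := by
  refine ⟨(minorMat x (Function.update z w 0) (insert w S)).det, fun s => ?_⟩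
  set M0 := minorMat x (Function.update z w 0) (insert w S) with hM0
  set e : V → ℂ := fun j => if w = j then 1 else 0 with he
  have h1 : minorMat x (Function.update z w s) (insert w S)
      = M0.updateRow w (s • e + M0 w) := by
    refine Matrix.ext (fun i j => ?_)
    by_cases hi : i = w
    · subst hi
      rw [Matrix.updateRow_self]
      by_cases hj : j = i
      · subst hj
        simp [M0, minorMat, e]
        ring
      · simp [M0, minorMat, e, Ne.symm hj]
    · rw [Matrix.updateRow_ne hi]
      simp [M0, minorMat, Function.update_of_ne hi]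
  rw [h1, Matrix.det_updateRow_add, Matrix.det_updateRow_smul, Matrix.updateRow_eq_self]
  congr 2
  refine det_eq_of_agree (w := w) (fun j hj => ?_) (fun j hj => ?_) ?_ (fun i j hi hj => ?_)
  · simp [Matrix.updateRow_self, e, Ne.symm hj]
  · simp [minorMat, hw, Ne.symm hj]
  · simp [Matrix.updateRow_self, e, minorMat, hw]
  · rw [Matrix.updateRow_ne hi]
    simp [M0, minorMat, hi, hj, Function.update_of_ne hi]

/-- Expected product of the colour minors: the vertices get independent colours with laws `p`,
and colour `c` consists of `D c` and of the vertices of `U` coloured `c`. -/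
noncomputable def mix (x : Matrix V V ℂ) (p : V → Fin r → ℝ) (z : Fin r → V → ℂ) (U : Finset V)
    (D : Fin r → Finset V) : ℂ :=
  ∑ f : V → Fin r, (∏ v, (p v (f v) : ℂ)) *
    ∏ c, (minorMat x (z c) (D c ∪ U.filter (fun u => f u = c))).det

lemma sum_prob_split {p : V → Fin r → ℝ} (hp1 : ∀ v, ∑ c, p v c = 1) (v : V)
    (G : (V → Fin r) → ℂ) :
    ∑ f : V → Fin r, (∏ u, (p u (f u) : ℂ)) * G f
      = ∑ c, (p v c : ℂ) * ∑ f : V → Fin r, (∏ u, (p u (f u) : ℂ)) * G (Function.update f v c) := by
  have hone : ∑ c, (p v c : ℂ) = 1 := by rw [← Complex.ofReal_sum, hp1, Complex.ofReal_one]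
  set e := Equiv.funSplitAt v (Fin r) with he
  have hsplit : ∀ K : (V → Fin r) → ℂ, ∑ f : V → Fin r, (∏ u, (p u (f u) : ℂ)) * K f
      = ∑ d, ∑ g : {u // u ≠ v} → Fin r,
          (p v d : ℂ) * (∏ u : {u // u ≠ v}, (p u.1 (g u) : ℂ)) * K (e.symm (d, g)) := by
    intro K
    rw [← e.symm.sum_comp, Fintype.sum_prod_type]
    refine Finset.sum_congr rfl (fun d _ => Finset.sum_congr rfl (fun g _ => ?_))
    congr 1
    rw [← Finset.mul_prod_erase _ _ (Finset.mem_univ v),
      Finset.prod_subtype (Finset.univ.erase v) (p := fun u => u ≠ v) (by simp)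
        (fun u => (p u (e.symm (d, g) u) : ℂ))]
    congr 1
    · simp [e]
    · exact Finset.prod_congr rfl (fun u _ => by simp [e, u.2])
  have hupd : ∀ (c d : Fin r) (g : {u // u ≠ v} → Fin r),
      Function.update (e.symm (d, g)) v c = e.symm (c, g) := by
    intro c d g
    funext u
    by_cases hu : u = v
    · subst hu; simp [e]
    · simp [e, hu]
  simp only [hsplit G, hsplit (fun f => G (Function.update f v _)), hupd]
  refine Finset.sum_congr rfl (fun c _ => ?_)
  simp only [mul_assoc, ← Finset.mul_sum]
  rw [← Finset.sum_mul, hone, one_mul]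

variable {x : Matrix V V ℂ} {p : V → Fin r → ℝ} {z : Fin r → V → ℂ}

lemma mix_empty (hp1 : ∀ v, ∑ c, p v c = 1) (D : Fin r → Finset V) :
    mix x p z ∅ D = ∏ c, (minorMat x (z c) (D c)).det := by
  simp only [mix, Finset.filter_empty, Finset.union_empty]
  rw [← Finset.sum_mul, ← Fintype.prod_sum (fun v c => (p v c : ℂ))]
  simp [← Complex.ofReal_sum, hp1]

lemma mix_insert (hp1 : ∀ v, ∑ c, p v c = 1) {U : Finset V} {v : V} (hv : v ∉ U)
    (D : Fin r → Finset V) :
    mix x p z (insert v U) D
      = ∑ c, (p v c : ℂ) * mix x p z U (Function.update D c (insert v (D c))) := by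
  simp only [mix]
  rw [sum_prob_split hp1 v]
  refine Finset.sum_congr rfl (fun c _ => congrArg _ (Finset.sum_congr rfl (fun f _ => ?_)))
  refine congrArg _ (Finset.prod_congr rfl (fun d _ => ?_))
  refine congrArg (fun S => (minorMat x (z d) S).det) ?_
  ext u
  by_cases hu : u = v
  · subst hu
    by_cases hd : d = c
    · subst hd; simp
    · simp [hv, hd, Ne.symm hd]
  · by_cases hd : d = c
    · subst hd; simp [hu]
    · simp [hu, hd]

lemma mix_affine (hp1 : ∀ v, ∑ c, p v c = 1) (U : Finset V) (D : Fin r → Finset V) (c : Fin r) (w : V) (hU : w ∉ U)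
    (hD : w ∉ D c) :
    ∃ k : ℂ, ∀ s : ℂ,
      mix x p (Function.update z c (Function.update (z c) w s)) U
          (Function.update D c (insert w (D c)))
        = s * mix x p z U D + k := by
  induction U using Finset.induction generalizing D with
  | empty =>
    obtain ⟨k, hk⟩ := minorMat_det_affine x (z c) (D c) w hD
    refine ⟨k * ∏ d ∈ Finset.univ.erase c, (minorMat x (z d) (D d)).det, fun s => ?_⟩
    rw [mix_empty hp1, mix_empty hp1, ← Finset.mul_prod_erase _ _ (Finset.mem_univ c),
      ← Finset.mul_prod_erase (Finset.univ : Finset (Fin r)) (fun d => (minorMat x (z d) (D d)).det)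
        (Finset.mem_univ c)]
    rw [Function.update_self, Function.update_self, hk]
    have : ∀ d ∈ Finset.univ.erase c,
        (minorMat x (Function.update z c (Function.update (z c) w s) d)
          (Function.update D c (insert w (D c)) d)).det = (minorMat x (z d) (D d)).det := by
      intro d hd
      rw [Function.update_of_ne (Finset.ne_of_mem_erase hd),
        Function.update_of_ne (Finset.ne_of_mem_erase hd)]
    rw [Finset.prod_congr rfl this]
    ring
  | insert v U hv ih =>
    have hwv : w ≠ v := fun h => hU (by simp [h])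
    have hwU : w ∉ U := fun h => hU (by simp [h])
    have hD' : ∀ d, w ∉ Function.update D d (insert v (D d)) c := by
      intro d
      by_cases hd : c = d
      · subst hd; simp [hwv, hD]
      · simp [Function.update_of_ne hd, hD]
    choose k hk using fun d => ih (Function.update D d (insert v (D d))) hwU (hD' d)
    refine ⟨∑ d, (p v d : ℂ) * k d, fun s => ?_⟩
    rw [mix_insert hp1 hv, mix_insert hp1 hv, Finset.mul_sum, ← Finset.sum_add_distrib]
    refine Finset.sum_congr rfl (fun d _ => ?_)
    have hcomm : Function.update (Function.update D c (insert w (D c))) d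
          (insert v (Function.update D c (insert w (D c)) d))
        = Function.update (Function.update D d (insert v (D d))) c
          (insert w (Function.update D d (insert v (D d)) c)) := by
      funext e
      by_cases hd : d = c
      · subst hd
        by_cases he : e = d
        · subst he; simp [Finset.insert_comm]
        · simp [Function.update_of_ne he]
      · by_cases he : e = d
        · subst he; simp [Function.update_of_ne hd, Function.update_of_ne (Ne.symm hd)]
        · by_cases he' : e = c
          · subst he'; simp [Function.update_of_ne he]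
          · simp [Function.update_of_ne he, Function.update_of_ne he']
    rw [hcomm, hk d s]
    ring

lemma affine_root_bound {A k : ℂ} (hA : A ≠ 0) {B : ℝ} (P : HalfPlane B)
    (h : ∀ s, 0 < P.ht s → s * A + k ≠ 0) (s : ℂ) :
    P.ht s ≤ (P.a * ((s * A + k) / A)).im := by
  have hroot : (P.a * (-k / A)).im ≤ P.b := by
    by_contra hc
    push Not at hc
    refine h (-k / A) (by rw [HalfPlane.ht]; linarith) ?_
    rw [div_mul_cancel₀ _ hA, neg_add_cancel]
  have e : P.a * ((s * A + k) / A) = P.a * s - P.a * (-k / A) := by field_simp; ring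
  rw [e, Complex.sub_im, HalfPlane.ht]
  linarith

/-- Stability: mixed minors do not vanish in half-planes missing `[-B, B]`, and adjoining a
vertex to one colour multiplies by a number at least as high as its variable. -/
theorem mix_stable {B : ℝ} (hx : NumBound x B) (P : HalfPlane B) (hp : ∀ v c, 0 ≤ p v c)
    (hp1 : ∀ v, ∑ c, p v c = 1) :
    ∀ (U : Finset V) (z : Fin r → V → ℂ), (∀ c v, 0 < P.ht (z c v)) →
      ∀ D : Fin r → Finset V, (∀ c, Disjoint U (D c)) →
        mix x p z U D ≠ 0 ∧
          ∀ c w, w ∉ U → w ∉ D c →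
            P.ht (z c w) ≤
              (P.a * (mix x p z U (Function.update D c (insert w (D c))) / mix x p z U D)).im := by
  intro U
  induction U using Finset.induction with
  | empty =>
    intro z hz D _
    have hne : ∀ (z : Fin r → V → ℂ), (∀ c v, 0 < P.ht (z c v)) → ∀ D : Fin r → Finset V,
        mix x p z ∅ D ≠ 0 := by
      intro z hz D
      rw [mix_empty hp1]
      exact Finset.prod_ne_zero_iff.2 (fun c _ => minorMat_det_ne_zero hx P (fun i _ => hz c i))
    refine ⟨hne z hz D, fun c w hw hwD => ?_⟩
    obtain ⟨k, hk⟩ := mix_affine (x := x) (p := p) (z := z) hp1 ∅ D c w hw hwD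
    have h1 := hk (z c w)
    rw [Function.update_eq_self, Function.update_eq_self] at h1
    rw [h1]
    refine affine_root_bound (hne z hz D) P (fun s hs => ?_) _
    rw [← hk s]
    refine hne _ (fun d v => ?_) _
    by_cases hd : d = c
    · subst hd
      by_cases hv : v = w
      · subst hv; simpa using hs
      · simpa [Function.update_of_ne hv] using hz d v
    · simpa [Function.update_of_ne hd] using hz d v
  | insert v U hv ih =>
    have main : ∀ z : Fin r → V → ℂ, (∀ c v, 0 < P.ht (z c v)) →
        ∀ D : Fin r → Finset V, (∀ c, Disjoint (insert v U) (D c)) →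
          mix x p z (insert v U) D ≠ 0 := by
      intro z hz D hD
      have hD' : ∀ c, Disjoint U (D c) := fun c => (Finset.disjoint_insert_left.1 (hD c)).2
      obtain ⟨h0, hr⟩ := ih z hz D hD'
      rw [mix_insert hp1 hv]
      intro hsum
      have hq : ∑ c, (p v c : ℂ) *
          (mix x p z U (Function.update D c (insert v (D c))) / mix x p z U D) = 0 := by
        simp only [← mul_div_assoc, ← Finset.sum_div, hsum, zero_div]
      have h1 := congrArg (fun q => (P.a * q).im) hq
      simp only [Finset.mul_sum, Complex.im_sum, mul_zero, Complex.zero_im, mul_left_comm P.a,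
        Complex.im_ofReal_mul] at h1
      have hpos : ∀ c, 0 < (P.a * (mix x p z U (Function.update D c (insert v (D c))) /
          mix x p z U D)).im := fun c =>
        (hz c v).trans_le (hr c v hv (Finset.disjoint_insert_left.1 (hD c)).1)
      obtain ⟨c, hc⟩ : ∃ c, 0 < p v c := by
        by_contra hn
        push Not at hn
        have : ∑ c, p v c ≤ 0 := Finset.sum_nonpos (fun c _ => hn c)
        linarith [hp1 v]
      have := Finset.sum_pos' (s := Finset.univ)
        (fun d _ => mul_nonneg (hp v d) (hpos d).le) ⟨c, Finset.mem_univ _, mul_pos hc (hpos c)⟩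
      linarith
    intro z hz D hD
    refine ⟨main z hz D hD, fun c w hw hwD => ?_⟩
    obtain ⟨k, hk⟩ := mix_affine (x := x) (p := p) (z := z) hp1 (insert v U) D c w hw hwD
    have h1 := hk (z c w)
    rw [Function.update_eq_self, Function.update_eq_self] at h1
    rw [h1]
    refine affine_root_bound (main z hz D hD) P (fun s hs => ?_) _
    rw [← hk s]
    refine main _ (fun d u => ?_) _ (fun d => ?_)
    · by_cases hd : d = c
      · subst hd
        by_cases hu : u = w
        · subst hu; simpa using hs
        · simpa [Function.update_of_ne hu] using hz d u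
      · simpa [Function.update_of_ne hd] using hz d u
    · by_cases hd : d = c
      · subst hd
        rw [Function.update_self, Finset.disjoint_insert_right]
        exact ⟨hw, hD d⟩
      · rw [Function.update_of_ne hd]; exact hD d

end Vale.Agent.P078.Mss
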